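import Vale.Agent.P358.Main

/-!
# P358: classical capacity of every generalised amplitude damping channel
-/

namespace Vale.Agent.Results.P358.GADCCapacity

open VAgent.P358

theorem result :
    ∀ γ ν : ℝ, γ ∈ Set.Icc (0:ℝ) 1 → ν ∈ Set.Icc (0:ℝ) 1 →
      (∀ (q : ℝ) (z : ℂ), gadc γ ν !![((1 - q : ℝ) : ℂ), z; star z, (q : ℂ)]
          = !![((1 - outPop γ ν q : ℝ) : ℂ), ((Real.sqrt (1 - γ) : ℝ) : ℂ) * z;
              ((Real.sqrt (1 - γ) : ℝ) : ℂ) * star z, ((outPop γ ν q : ℝ) : ℂ)]) ∧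
      (∀ n : ℕ, (holevoSet γ ν n).Nonempty ∧ BddAbove (holevoSet γ ν n) ∧
          holevo γ ν n = n * holevo γ ν 1) ∧
      BddAbove {x | ∃ n : ℕ, 1 ≤ n ∧ x = holevo γ ν n / n} ∧
      capacity γ ν = holevo γ ν 1 ∧ capacity γ ν = chiFormula γ ν := by
  intro γ ν hγ hν
  obtain ⟨h1, h2, h3⟩ := gadc_capacity hγ hν
  refine ⟨?_, fun n => ⟨⟨_, holevo_ge hγ hν n (q := 0) (by norm_num)⟩, h1 n⟩, ?_, h2, h3⟩
  · intro q z
    ext x y
    fin_cases x <;> fin_cases y <;>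
      simp [gadc, kern, outPop, Fin.sum_univ_two] <;> ring
  · refine ⟨holevo γ ν 1, ?_⟩
    rintro x ⟨n, hn, rfl⟩
    rw [(h1 n).2]
    have : (n : ℝ) ≠ 0 := by positivity
    rw [mul_div_cancel_left₀ _ this]

end Vale.Agent.Results.P358.GADCCapacity
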